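import Vale.Agent.P163.Model

/-!
# P163: exhausting sequences of boxes, local weak limits, global rotations
-/

open MeasureTheory Filter Topology

namespace Vale.Agent.P163W43

open Vale.Agent.P163.Model

/-- The boxes `[a k, b k]` exhaust the square lattice. -/
def Exhausts (a b : ℕ → ℤ × ℤ) : Prop :=
  ∀ x : ℤ × ℤ, ∀ᶠ k in atTop, x ∈ Finset.Icc (a k) (b k)

open Classical in
/-- `μ` is the local weak limit of the measures in the boxes `[a k, b k]` with periodic
(`p k = true`) or free (`p k = false`) boundary conditions. -/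
def LocalLimit (n : ℕ) (β : ℝ) (p : ℕ → Bool) (a b : ℕ → ℤ × ℤ)
    (μ : Measure (ℤ × ℤ → Spin n)) : Prop :=
  ∀ (A : Finset (ℤ × ℤ)) (f : (A → Spin n) → ℝ), Continuous f →
    Tendsto (fun k => if h : A ⊆ Finset.Icc (a k) (b k) then
        ∫ σ, f (fun x => σ ⟨x.1, h x.2⟩) ∂(boxState n β (p k) (a k) (b k)) else 0)
      atTop (𝓝 (∫ σ, f (fun x => σ x.1) ∂μ))

/-- Infinite-volume states: local weak limits along boxes that exhaust the lattice. -/
def IsState (n : ℕ) (β : ℝ) (μ : Measure (ℤ × ℤ → Spin n)) : Prop :=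
  ∃ (p : ℕ → Bool) (a b : ℕ → ℤ × ℤ), Exhausts a b ∧ LocalLimit n β p a b μ

/-- All spins are moved by the orthogonal map `U`. -/
noncomputable def rot {V : Type} {n : ℕ} (U : E n ≃ₗᵢ[ℝ] E n) (σ : V → Spin n) : V → Spin n :=
  fun x => ⟨U (σ x), by simp⟩

end Vale.Agent.P163W43
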