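import Mathlib.MeasureTheory.Measure.Prokhorov
import Mathlib.MeasureTheory.Measure.LevyProkhorovMetric
import Mathlib.MeasureTheory.Constructions.Projective
import Vale.Agent.P163W43.Defs
import Vale.Agent.P163.Bdl.B1

/-!
# P163: infinite-volume states exist; they are rotation invariant probability measures
-/

open MeasureTheory Filter Topology
open scoped RealInnerProductSpace BoundedContinuousFunction

namespace Vale.Agent.P163W43

open Vale.Agent.P163.Model

variable {n : ℕ} {β : ℝ} {p : ℕ → Bool} {a b : ℕ → ℤ × ℤ} {μ ν : Measure (ℤ × ℤ → Spin n)}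

theorem unif_prob [NeZero n] : IsProbabilityMeasure (unif n) := by
  rw [P163.model_unif]
  infer_instance

theorem gibbs_prob [NeZero n] {V : Type} [Fintype V] (J : V → V → ℝ) :
    IsProbabilityMeasure (gibbs n J) := by
  have := unif_prob (n := n)
  refine isProbabilityMeasure_tilted ?_
  exact Continuous.integrable_of_hasCompactSupport (by fun_prop)
    (HasCompactSupport.of_compactSpace _)

theorem box_prob [NeZero n] (β : ℝ) (p : Bool) (a b : ℤ × ℤ) :
    IsProbabilityMeasure (boxState n β p a b) := gibbs_prob _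

theorem Exhausts.sub (h : Exhausts a b) (A : Finset (ℤ × ℤ)) :
    ∀ᶠ k in atTop, A ⊆ Finset.Icc (a k) (b k) :=
  (A.eventually_all.2 fun x _ => h x).mono fun _ hk _ hx => hk _ hx

theorem LocalLimit.prob [NeZero n] (h : LocalLimit n β p a b μ) : IsProbabilityMeasure μ := by
  have h1 := h ∅ (fun _ => 1) continuous_const
  have h2 := box_prob (n := n) β
  simp only [Finset.empty_subset, dite_true, integral_const, probReal_univ, smul_eq_mul,
    mul_one, tendsto_const_nhds_iff] at h1
  exact ⟨(ENNReal.toReal_eq_one_iff _).1 h1.symm⟩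

theorem ext_local [IsProbabilityMeasure μ] [IsProbabilityMeasure ν]
    (h : ∀ (A : Finset (ℤ × ℤ)) (f : (A → Spin n) → ℝ), Continuous f →
      ∫ σ, f (fun x => σ x.1) ∂μ = ∫ σ, f (fun x => σ x.1) ∂ν) : μ = ν := by
  refine IsProjectiveLimit.unique (P := fun A => ν.map A.restrict) (fun A => ?_) fun _ => rfl
  refine ext_of_forall_integral_eq_of_IsFiniteMeasure fun f => ?_
  rw [integral_map A.measurable_restrict.aemeasurable f.continuous.aestronglyMeasurable,
    integral_map A.measurable_restrict.aemeasurable f.continuous.aestronglyMeasurable]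
  exact h A f f.continuous

theorem LocalLimit.unique [NeZero n] (h : LocalLimit n β p a b μ) (h' : LocalLimit n β p a b ν) :
    μ = ν :=
  have := h.prob
  have := h'.prob
  ext_local fun A f hf => tendsto_nhds_unique (h A f hf) (h' A f hf)

theorem exists_limit [NeZero n] (β : ℝ) (p : ℕ → Bool) (h : Exhausts a b) :
    ∃ φ : ℕ → ℕ, StrictMono φ ∧ ∃ μ, LocalLimit n β (p ∘ φ) (a ∘ φ) (b ∘ φ) μ := by
  classical
  obtain ⟨e⟩ : Nonempty (Spin n) := nonempty_of_isProbabilityMeasure (P163.unif n)
  set ex : ∀ k, (Finset.Icc (a k) (b k) → Spin n) → ℤ × ℤ → Spin n := fun k σ x =>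
    if hx : x ∈ Finset.Icc (a k) (b k) then σ ⟨x, hx⟩ else e with hex
  have hc : ∀ k, Continuous (ex k) := fun k => continuous_pi fun x => by
    by_cases hx : x ∈ Finset.Icc (a k) (b k)
    · simp only [hex, hx, dite_true]
      exact continuous_apply _
    · simp only [hex, hx, dite_false]
      exact continuous_const
  have hb := box_prob (n := n) β
  obtain ⟨m, φ, hφ, hm⟩ := CompactSpace.tendsto_subseq
    (X := ProbabilityMeasure (ℤ × ℤ → Spin n)) fun k =>
      ⟨(boxState n β (p k) (a k) (b k)).map (ex k),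
        Measure.isProbabilityMeasure_map (hc k).measurable.aemeasurable⟩
  refine ⟨φ, hφ, m, fun A f hf => ?_⟩
  have hF : Continuous fun σ : ℤ × ℤ → Spin n => f fun x => σ x.1 := hf.comp (by fun_prop)
  refine (ProbabilityMeasure.tendsto_iff_forall_integral_tendsto.1 hm
    (BoundedContinuousFunction.mkOfCompact ⟨_, hF⟩)).congr' ?_
  filter_upwards [hφ.tendsto_atTop.eventually (h.sub A)] with k hk
  refine (integral_map (hc _).measurable.aemeasurable hF.aestronglyMeasurable).trans ?_
  refine Eq.trans ?_ (dif_pos hk).symm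
  refine integral_congr_ae (Eventually.of_forall fun σ => ?_)
  exact congrArg f (funext fun x => dif_pos (hk x.2))

theorem exists_state [NeZero n] (β : ℝ) (p : ℕ → Bool) :
    ∃ μ, IsState n β μ := by
  have h : Exhausts (fun k : ℕ => (-(k : ℤ), -(k : ℤ))) fun k => ((k : ℤ), (k : ℤ)) := fun x => by
    filter_upwards [eventually_ge_atTop (x.1.natAbs + x.2.natAbs)] with k hk
    simp only [Finset.mem_Icc, Prod.le_def]
    omega
  obtain ⟨φ, hφ, μ, hμ⟩ := exists_limit (n := n) β p h
  exact ⟨μ, _, _, _, fun x => hφ.tendsto_atTop.eventually (h x), hμ⟩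

theorem continuous_rot {V : Type} (U : E n ≃ₗᵢ[ℝ] E n) : Continuous (rot (V := V) U) :=
  continuous_pi fun x => Continuous.subtype_mk (by fun_prop) _

theorem gibbs_rot [NeZero n] {V : Type} [Fintype V] (J : V → V → ℝ) (U : E n ≃ₗᵢ[ℝ] E n)
    {F : (V → Spin n) → ℝ} (hF : Continuous F) :
    ∫ σ, F (rot U σ) ∂(gibbs n J) = ∫ σ, F σ ∂(gibbs n J) := by
  have := unif_prob (n := n)
  have hU : MeasurePreserving (rot (V := V) U) (Measure.pi fun _ => unif n)
      (Measure.pi fun _ => unif n) :=
    measurePreserving_pi _ _ (f := fun _ => P163.isoSphere U) fun _ =>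
      ⟨P163.measurable_isoSphere U, by rw [P163.model_unif]; exact P163.unif_map_iso U⟩
  rw [gibbs, integral_tilted, integral_tilted]
  conv_rhs => rw [← hU.map_eq, integral_map hU.measurable.aemeasurable
    (Continuous.aestronglyMeasurable (by fun_prop)), hU.map_eq]
  simp only [rot, LinearIsometryEquiv.inner_map_map]

theorem LocalLimit.rot_eq [NeZero n] (h : LocalLimit n β p a b μ) (U : E n ≃ₗᵢ[ℝ] E n) :
    μ.map (rot U) = μ := by
  have := h.prob
  have hm := (continuous_rot (V := ℤ × ℤ) U).measurable.aemeasurable (μ := μ)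
  have := Measure.isProbabilityMeasure_map hm
  refine ext_local fun A f hf => ?_
  have hF : Continuous fun σ : ℤ × ℤ → Spin n => f fun x => σ x.1 := hf.comp (by fun_prop)
  rw [integral_map hm hF.aestronglyMeasurable]
  refine tendsto_nhds_unique ((h A _ (hf.comp (continuous_rot U))).congr fun k => ?_) (h A f hf)
  split_ifs with hk
  · exact gibbs_rot _ U
      (F := fun σ : Finset.Icc (a k) (b k) → Spin n => f fun x : A => σ ⟨x.1, hk x.2⟩)
      (hf.comp (continuous_pi fun x => continuous_apply _))
  · rfl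

end Vale.Agent.P163W43
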